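import Vale.Agent.P150.Beta1.Final

/-!
# P150: gap of order one and mixing time of order `log n` for all `β < 1`
-/

namespace Vale.Agent.Results.P150.FastMixingBelowOne

open MeasureTheory ProbabilityTheory Filter
open Vale.Agent.P150
open scoped Topology

theorem result :
    (∀ β : ℝ, 0 ≤ β → β < 1 →
      ∃ κ > 0, ∃ C > 0, Tendsto (fun n : ℕ =>
        Measure.pi (fun _ : Fin n × Fin n => gaussianReal 0 1)
          {g | (∀ f : (Fin n → Bool) → ℝ,
              κ * Vale.Agent.P150.variance (gibbs (skCoupling β g) 0) f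
                ≤ dirichlet (gibbs (skCoupling β g) 0) f) ∧
            ∀ t : ℝ, C * Real.log n ≤ t →
              ∀ x, tvDist (gibbs (skCoupling β g) 0) t x ≤ 1 / 4})
        atTop (𝓝 1)) ∧
    (∀ β : ℝ, 0 ≤ β → β < 1 / 2 →
      ∃ κ > 0, Tendsto (fun n : ℕ =>
        Measure.pi (fun _ : Fin n × Fin n => gaussianReal 0 1)
          {g | ∀ (h : Fin n → ℝ) (f : (Fin n → Bool) → ℝ),
              κ * Vale.Agent.P150.variance (gibbs (skCoupling β g) h) f
                ≤ dirichlet (gibbs (skCoupling β g) h) f})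
        atTop (𝓝 1)) ∧
    (∀ β : ℝ, 0 ≤ β →
      ∃ c > 0, Tendsto (fun n : ℕ =>
        Measure.pi (fun _ : Fin n × Fin n => gaussianReal 0 1)
          {g | (∀ t : ℝ, 0 ≤ t → t ≤ c * Real.log n →
              ∃ x, 1 / 4 < tvDist (gibbs (skCoupling β g) 0) t x) ∧
            ∃ f, 0 < Vale.Agent.P150.variance (gibbs (skCoupling β g) 0) f ∧
              dirichlet (gibbs (skCoupling β g) 0) f
                ≤ Vale.Agent.P150.variance (gibbs (skCoupling β g) 0) f})
        atTop (𝓝 1)) := by
  refine ⟨Beta1.fastMixing, fun β hβ h => ?_, fun β hβ => lower_bounds hβ⟩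
  obtain ⟨κ, hκ, C, -, hlim⟩ := upper_bounds hβ h
  exact ⟨κ, hκ, tendsto_of_tendsto_of_tendsto_of_le_of_le' hlim tendsto_const_nhds
    (Eventually.of_forall fun n => measure_mono fun g hg => hg.1)
    (Eventually.of_forall fun n => prob_le_one)⟩

end Vale.Agent.Results.P150.FastMixingBelowOne
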