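import Mathlib
import Vale.Agent.P150.SlowMixing
import Vale.Agent.P150.Critical

/-!
# P150: relaxation and mixing times at least linear in `n` for every `β > 1`, and a vanishing
spectral gap at `β = 1`
-/

namespace Vale.Agent.Results.P150.SlowAboveOne

open MeasureTheory ProbabilityTheory Filter
open Vale.Agent.P150
open scoped Topology

theorem result :
    (∀ β : ℝ, 1 < β →
      (∀ η : ℝ, 0 < η → ∃ a > 0, ∀ᶠ n : ℕ in atTop, ENNReal.ofReal (1 - η) ≤
        Measure.pi (fun _ : Fin n × Fin n => gaussianReal 0 1)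
          {g | (∃ f, 0 < Vale.Agent.P150.variance (gibbs (skCoupling β g) 0) f ∧
              a * n * dirichlet (gibbs (skCoupling β g) 0) f
                ≤ Vale.Agent.P150.variance (gibbs (skCoupling β g) 0) f) ∧
            ∀ t : ℝ, 0 ≤ t → t ≤ a * n →
              ∃ x, 1 / 4 < tvDist (gibbs (skCoupling β g) 0) t x}) ∧
      ∀ M κ : ℝ, 0 < κ → Tendsto (fun n : ℕ =>
        Measure.pi (fun _ : Fin n × Fin n => gaussianReal 0 1)
          {g | (∃ f, 0 < Vale.Agent.P150.variance (gibbs (skCoupling β g) 0) f ∧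
              dirichlet (gibbs (skCoupling β g) 0) f
                ≤ κ * Vale.Agent.P150.variance (gibbs (skCoupling β g) 0) f) ∧
            ∀ t : ℝ, 0 ≤ t → t ≤ M * Real.log n →
              ∃ x, 1 / 4 < tvDist (gibbs (skCoupling β g) 0) t x})
        atTop (𝓝 1)) ∧
    ∀ κ : ℝ, 0 < κ → Tendsto (fun n : ℕ =>
      Measure.pi (fun _ : Fin n × Fin n => gaussianReal 0 1)
        {g | ∃ f, 0 < Vale.Agent.P150.variance (gibbs (skCoupling 1 g) 0) f ∧
          dirichlet (gibbs (skCoupling 1 g) 0) f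
            ≤ κ * Vale.Agent.P150.variance (gibbs (skCoupling 1 g) 0) f})
      atTop (𝓝 1) :=
  ⟨fun _ hβ => slow_above_one hβ, gap_vanishes_critical⟩

end Vale.Agent.Results.P150.SlowAboveOne
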